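import Vale.Agent.P322.Check.ExitBand

/-!
# Courtade–Kumar: data for the exit of the tilted path
-/

namespace Vale.Agent.P322.Check

/-- Slices of the exit range. -/
def exitSlices : List ESlice := [
    ⟨(33 / 100), [
      ⟨(29 / 40), 1, (4953 / 1000), (13 / 5), (-27 / 200)⟩,
      ⟨1, (769 / 625), (5693 / 500), (11 / 5), (-15001 / 1000000)⟩]⟩,
    ⟨(19 / 50), [
      ⟨(29 / 40), 1, (4953 / 1000), (13 / 5), (-27 / 200)⟩,
      ⟨1, (12077 / 10000), (289 / 25), (11 / 5), (-15001 / 1000000)⟩]⟩,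
    ⟨(9 / 20), [
      ⟨(29 / 40), 1, (4953 / 1000), (13 / 5), (-27 / 200)⟩,
      ⟨1, (5677 / 5000), (12163 / 1000), (11 / 5), (-15001 / 1000000)⟩]⟩,
    ⟨(13 / 25), [
      ⟨(29 / 40), 1, (66859 / 10000), (13 / 5), (-27 / 200)⟩,
      ⟨1, (451 / 400), (1683 / 125), (12 / 5), (-60001 / 1000000)⟩]⟩,
    ⟨(3 / 5), [
      ⟨1, 1, (361 / 40), (13 / 5), (-27 / 200)⟩]⟩,
    ⟨(33 / 50), [
      ⟨1, 1, (1683 / 125), (13 / 5), (-27 / 200)⟩]⟩,
    ⟨(3379 / 5000), [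
      ⟨1, 1, (27299 / 500), (13 / 5), (-27 / 200)⟩]⟩]

theorem exitSlices_ok : eslicesOK (9 / 20) (71 / 250) exitSlices = true := by decide +kernel

end Vale.Agent.P322.Check
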