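import Vale.Agent.P322.Check.Compact

/-!
# Courtade–Kumar: data for the saturation step, small `b`
-/

namespace Vale.Agent.P322.Check

/-- Slices for small `b`. -/
def smallSlices : List Slice := [
    ⟨(1 / 10), [
      ⟨⟨(19781 / 200000), (19781 / 200000)⟩, ⟨1, (12207 / 10000), (12 / 5), (-60001 / 1000000), 1, 1, []⟩⟩,
      ⟨⟨(148357 / 1000000), (148357 / 1000000)⟩, ⟨1, (12207 / 10000), (12 / 5), (-60001 / 1000000), 1, 1, []⟩⟩,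
      ⟨⟨(19781 / 100000), (19781 / 100000)⟩, ⟨1, (12207 / 10000), (11 / 5), (-15001 / 1000000), 0, 1, []⟩⟩]⟩,
    ⟨(1 / 5), [
      ⟨⟨(19781 / 200000), (19781 / 200000)⟩, ⟨1, (12207 / 10000), (12 / 5), (-60001 / 1000000), 1, 1, []⟩⟩,
      ⟨⟨(148357 / 1000000), (148357 / 1000000)⟩, ⟨1, (12207 / 10000), (12 / 5), (-60001 / 1000000), 1, 1, []⟩⟩,
      ⟨⟨(19781 / 100000), (19781 / 100000)⟩, ⟨1, (12207 / 10000), (11 / 5), (-15001 / 1000000), 0, 1, []⟩⟩]⟩,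
    ⟨(2 / 5), [
      ⟨⟨(12363 / 500000), (12363 / 500000)⟩, ⟨1, 1, (12 / 5), (-60001 / 1000000), 1, 1, []⟩⟩,
      ⟨⟨(27817 / 250000), (27817 / 250000)⟩, ⟨1, (12207 / 10000), (12 / 5), (-60001 / 1000000), 1, 1, []⟩⟩,
      ⟨⟨(19781 / 100000), (19781 / 100000)⟩, ⟨1, (12207 / 10000), (12 / 5), (-60001 / 1000000), 0, 1, []⟩⟩]⟩,
    ⟨(13 / 20), [
      ⟨⟨(19781 / 200000), (19781 / 200000)⟩, ⟨1, (12207 / 10000), (12 / 5), (-60001 / 1000000), 1, 1, []⟩⟩,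
      ⟨⟨(19781 / 100000), (19781 / 100000)⟩, ⟨1, (12207 / 10000), (12 / 5), (-60001 / 1000000), 0, 1, []⟩⟩]⟩,
    ⟨(80219 / 100000), [
      ⟨⟨(19781 / 100000), (19781 / 100000)⟩, ⟨(40343 / 100), (17043 / 10000), (11 / 5), (-15001 / 1000000), 1, 1, []⟩⟩]⟩,
    ⟨(17 / 20), [
      ⟨⟨(19781 / 100000), (3 / 20)⟩, ⟨(40343 / 100), (17043 / 10000), (11 / 5), (-15001 / 1000000), 1, 1, []⟩⟩]⟩,
    ⟨1, [
      ⟨⟨(3 / 40), 0⟩, ⟨(361 / 40), (12987 / 10000), 2, 0, 1, 1, []⟩⟩,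
      ⟨⟨(3 / 20), 0⟩, ⟨(40343 / 100), (17043 / 10000), 2, 0, 0, 1, []⟩⟩]⟩]

theorem smallSlices_ok : smallOK (149 / 100) (342329 / 100000) (36377 / 100000) (989 / 5000) smallSlices = true := by decide +kernel

end Vale.Agent.P322.Check
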